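import Vale.Agent.H23.Potts4.PolyII

/-
The polynomial of the invariance inequality (I) for four states.
-/

namespace Vale.Agent.H23.Potts4

open Vale.Agent.H23.Potts

section
variable {k : ℕ}

/-- `900 Z^5 g(w/Z)` in terms of `Z`, `s`, `t`, `r` -/
def gI (Z s t r : PE k) : PE k :=
  PE.add (PE.mul (PE.add (zm 900 (sq Z)) (zm 156 s)) t)
    (PE.neg (PE.mul Z (PE.add (zm 83 (sq s)) (zm 135 r))))

/-- `90000 C_0` -/
def c0I (M Z s t r : PE k) : PE k :=
  PE.add
    (PE.mul Z (PE.add (PE.mul Z (PE.add (PE.mul Z (PE.add (zm 356427 M) (zm (-179748) Z)))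
      (PE.add (zm (-144711) (sq M)) (zm 216534 s))))
      (PE.add (PE.mul M (PE.add (zm (-35739) (sq M)) (zm (-395685) s))) (zm (-387486) t))))
    (PE.add (PE.mul M (PE.add (zm 150750 (PE.mul M s)) (zm 1138527 t)))
      (PE.add (zm (-33526) (sq s)) (zm 2622 r)))

/-- `90000 C_1` -/
def c1I (M s t r : PE k) : PE k :=
  PE.add (PE.mul s (PE.add (zm 19062 (PE.mul M (sq M))) (zm 70500 t)))
    (PE.neg (PE.mul M (PE.add (zm 264339 (PE.mul M t)) (PE.add (zm 3832 (sq s)) (zm 69537 r)))))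

/-- the term with the denominator -/
def eI (M Z s t r : PE k) : PE k :=
  PE.add (zm 10800 (PE.mul (gI Z s t r) (sq M))) (zm 27 (PE.mul (sq (sb Z M)) (c1I M s t r)))

/-- the term without denominator -/
def fI (M Z s t r : PE k) : PE k :=
  PE.add (zm (-8100) (PE.mul (gI Z s t r) M)) (zm 27 (PE.mul (sq (sb Z M)) (c0I M Z s t r)))

/-- `2700 n^6 h` -/
def qH (n x y z : PE k) : PE k :=
  PE.add
    (PE.add
      (PE.add (PE.mul (sq (sq n)) (PE.add (zm 2700 (sq n)) (zm (-5616) (qS x y z))))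
        (zm 5608 (PE.mul (qS x y z) (sq (qS x y z)))))
      (zm 97794 (sq (qT x y z))))
    (PE.add
      (PE.mul (sq n) (PE.add (PE.add (zm 2187 (PE.mul n (qT x y z)))
        (zm (-276) (sq (qS x y z)))) (zm 24273 (qR x y z))))
      (PE.neg (PE.mul (qS x y z) (PE.add (zm 32715 (PE.mul n (qT x y z)))
        (zm 23226 (qR x y z))))))

/-- the correction -/
def qPI (n x y z m u v w : PE k) : PE k :=
  PE.add
    (PE.add
      (PE.mul
        (PE.add (PE.mul (sq m) (PE.add (PE.mul (qV (-105399) 73113 (-1188) n x y z) (sq m))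
          (PE.mul (qV 73113 (-116018) 28593 n x y z) (qS u v w))))
          (PE.mul (PE.mul (qV (-1188) 28593 756054 n x y z) m) (qT u v w)))
        (PE.add (PE.mul (qU x y z) (qU u v w))
          (PE.add (PE.mul (qU y z x) (qU v w u)) (PE.mul (qU z x y) (qU w u v)))))
      (PE.mul (PE.mul (qV 27648 (-156294) 346221 n x y z) (sq m))
        (PE.add (PE.mul (qU x y z) (qW u v w))
          (PE.add (PE.mul (qU y z x) (qW v w u)) (PE.mul (qU z x y) (qW w u v))))))
    (PE.add
      (PE.mul (PE.mul (sq n) (qV 27648 (-156294) 346221 m u v w))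
        (PE.add (PE.mul (qW x y z) (qU u v w))
          (PE.add (PE.mul (qW y z x) (qU v w u)) (PE.mul (qW z x y) (qU w u v)))))
      (PE.neg (PE.mul (PE.mul (zm 600318 (sq n)) (sq m))
        (PE.add (PE.mul (qW x y z) (qW u v w))
          (PE.add (PE.mul (qW y z x) (qW v w u)) (PE.mul (qW z x y) (qW w u v)))))))

/-- the part without `h` -/
def qBI (n x y z m u v w : PE k) : PE k :=
  PE.add
    (zm (-4) (PE.add (PE.mul (qG n x y z) (qH m u v w)) (PE.mul (qH n x y z) (qG m u v w))))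
    (zm (-12) (qPI n x y z m u v w))

/-- Fourier coordinate 1 of the product -/
def qw1 (n x y z m u v w : PE k) : PE k :=
  PE.add (PE.add (PE.mul x m) (PE.mul n u)) (PE.add (PE.mul y w) (PE.mul z v))
/-- Fourier coordinate 2 of the product -/
def qw2 (n x y z m u v w : PE k) : PE k :=
  PE.add (PE.add (PE.mul y m) (PE.mul n v)) (PE.add (PE.mul x w) (PE.mul z u))
/-- Fourier coordinate 3 of the product -/
def qw3 (n x y z m u v w : PE k) : PE k :=
  PE.add (PE.add (PE.mul z m) (PE.mul n w)) (PE.add (PE.mul x v) (PE.mul y u))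

/-- `eI` for the product -/
def eIp (n x y z m u v w : PE k) : PE k :=
  let W1 := qw1 n x y z m u v w
  let W2 := qw2 n x y z m u v w
  let W3 := qw3 n x y z m u v w
  eI (PE.mul n m) (qZ n x y z m u v w) (qS W1 W2 W3) (qT W1 W2 W3) (qR W1 W2 W3)

/-- `fI` for the product -/
def fIp (n x y z m u v w : PE k) : PE k :=
  let W1 := qw1 n x y z m u v w
  let W2 := qw2 n x y z m u v w
  let W3 := qw3 n x y z m u v w
  fI (PE.mul n m) (qZ n x y z m u v w) (qS W1 W2 W3) (qT W1 W2 W3) (qR W1 W2 W3)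

/-- the polynomial of (I) -/
def qI (n x y z m u v w : PE k) : PE k :=
  let Z0 := qZ n x y z m u v w
  let Z1 := qZ n x y z m u (PE.neg v) (PE.neg w)
  let Z2 := qZ n x y z m (PE.neg u) v (PE.neg w)
  let Z3 := qZ n x y z m (PE.neg u) (PE.neg v) w
  let E0 := eIp n x y z m u v w
  let E1 := eIp n x y z m u (PE.neg v) (PE.neg w)
  let E2 := eIp n x y z m (PE.neg u) v (PE.neg w)
  let E3 := eIp n x y z m (PE.neg u) (PE.neg v) w
  let F0 := fIp n x y z m u v w
  let F1 := fIp n x y z m u (PE.neg v) (PE.neg w)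
  let F2 := fIp n x y z m (PE.neg u) v (PE.neg w)
  let F3 := fIp n x y z m (PE.neg u) (PE.neg v) w
  PE.add (PE.mul (PE.mul (PE.mul Z0 Z1) (PE.mul Z2 Z3))
      (PE.add (qBI n x y z m u v w) (PE.add (PE.add F0 F1) (PE.add F2 F3))))
    (PE.add (PE.mul (PE.mul Z0 Z1) (PE.add (PE.mul E2 Z3) (PE.mul E3 Z2)))
        (PE.mul (PE.mul Z2 Z3) (PE.add (PE.mul E0 Z1) (PE.mul E1 Z0))))

end

/-- the polynomial in the eight variables -/
def I8 : PE 8 := qI (PE.var 3) (PE.var 0) (PE.var 1) (PE.var 2)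
  (PE.var 7) (PE.var 4) (PE.var 5) (PE.var 6)

theorem I8_bideg : PE.bideg kind8 I8 = some (10, 10) := by decide +kernel

end Vale.Agent.H23.Potts4
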